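import Vale.Agent.P305.Model

/-! Comparability graphs of height three, and almost-linear time. -/

set_option autoImplicit false

namespace Vale.Agent.P305

/-- `G` is the comparability graph of a strict partial order in which every chain has at most
three elements, and `G` is a bipartite graph plus a perfect matching of one side: outside some
independent set `I` every vertex has exactly one neighbour outside `I`. -/
def Comp3 (n : ℕ) (G : SimpleGraph (Fin n)) : Prop :=
  (∃ r : Fin n → Fin n → Prop, IsStrictOrder (Fin n) r ∧ (∀ u v, G.Adj u v ↔ r u v ∨ r v u) ∧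
    ∀ a b c d, ¬ (r a b ∧ r b c ∧ r c d)) ∧
  ∃ I : Set (Fin n), (∀ u ∈ I, ∀ v ∈ I, ¬ G.Adj u v) ∧ ∀ u ∉ I, ∃! v, v ∉ I ∧ G.Adj u v

/-- A maximum matching of the graphs with property `C` is computed in time `(n + m) ^ (1 + o(1))`
by some program. -/
def AlmostLinear (C : ∀ n : ℕ, SimpleGraph (Fin n) → Prop) : Prop :=
  ∃ (P : Prog) (T : ℕ → ℕ), Solves P C (fun n G => T (n + G.edgeSet.ncard)) ∧
    ∀ ε : ℝ, 0 < ε → ∃ c : ℝ, ∀ N : ℕ, (T N : ℝ) ≤ c * ((N : ℝ) + 1) ^ (1 + ε)

end Vale.Agent.P305
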