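import Vale.Agent.P305.Model

/-! Induced odd packings. -/

set_option autoImplicit false

namespace Vale.Agent.P305

/-- `S 0, …, S (k-1)` are pairwise disjoint vertex sets without edges between them, and each of
them induces a graph that is not bipartite (that is, contains an odd cycle). -/
def IsOddPacking {n : ℕ} (G : SimpleGraph (Fin n)) (k : ℕ) (S : Fin k → Set (Fin n)) : Prop :=
  (∀ i, ¬ (G.induce (S i)).IsBipartite) ∧
  ∀ i j, i ≠ j → ∀ u ∈ S i, ∀ v ∈ S j, u ≠ v ∧ ¬ G.Adj u v

/-- The induced odd cycle packing number: the largest number of vertex-disjoint odd cycles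
without edges between different cycles. -/
noncomputable def oddPacking {n : ℕ} (G : SimpleGraph (Fin n)) : ℕ :=
  sSup {k | ∃ S : Fin k → Set (Fin n), IsOddPacking G k S}

end Vale.Agent.P305
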