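import Vale.Agent.P305.MathlibUsed

/-! The word RAM in structured form, graph inputs as adjacency lists, and maximum matching. -/

set_option autoImplicit false

namespace Vale.Agent.P305

/-- Unit-cost binary operations on words. -/
inductive Op
  | add | sub | mul | div | mod | land | lor | xor | shl | shr

/-- Value of an operation (`sub` is truncated at `0`). -/
def Op.eval : Op → ℕ → ℕ → ℕ
  | .add, a, b => a + b
  | .sub, a, b => a - b
  | .mul, a, b => a * b
  | .div, a, b => a / b
  | .mod, a, b => a % b
  | .land, a, b => a &&& b
  | .lor, a, b => a ||| b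
  | .xor, a, b => a ^^^ b
  | .shl, a, b => a <<< b
  | .shr, a, b => a >>> b

/-- Tests comparing two registers. -/
inductive Test
  | lt (a b : ℕ)
  | eq (a b : ℕ)
  | ne (a b : ℕ)

/-- Programs of the word RAM, in structured form; `d`, `a`, `b` are names of registers. -/
inductive Prog
  | const (d c : ℕ)
  | op (o : Op) (d a b : ℕ)
  | load (d a : ℕ)
  | store (a b : ℕ)
  | seq (p q : Prog)
  | ite (c : Test) (p q : Prog)
  | loop (c : Test) (p : Prog)

/-- A machine state: contents of the registers and of the memory cells. -/
structure State where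
  reg : ℕ → ℕ
  mem : ℕ → ℕ

/-- Value of a test. -/
def Test.holds : Test → (ℕ → ℕ) → Prop
  | .lt a b, r => r a < r b
  | .eq a b, r => r a = r b
  | .ne a b, r => r a ≠ r b

/-- `Exec W p s t s'`: on a machine whose words hold the numbers `0, …, W`, program `p` started in
state `s` halts in state `s'` after `t` steps; every elementary instruction and every test of a
condition costs one step. `const d c` puts `c` into register `d`; `op o d a b` puts the value of `o`
on registers `a`, `b` into `d`; `load d a` puts the content of the memory cell whose address is in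
register `a` into `d`; `store a b` puts register `b` into the memory cell whose address is in
register `a`. -/
inductive Exec (W : ℕ) : Prog → State → ℕ → State → Prop
  | const (s : State) (d c : ℕ) (h : c ≤ W) :
      Exec W (.const d c) s 1 ⟨Function.update s.reg d c, s.mem⟩
  | op (s : State) (o : Op) (d a b : ℕ) (h : o.eval (s.reg a) (s.reg b) ≤ W) :
      Exec W (.op o d a b) s 1 ⟨Function.update s.reg d (o.eval (s.reg a) (s.reg b)), s.mem⟩
  | load (s : State) (d a : ℕ) :
      Exec W (.load d a) s 1 ⟨Function.update s.reg d (s.mem (s.reg a)), s.mem⟩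
  | store (s : State) (a b : ℕ) :
      Exec W (.store a b) s 1 ⟨s.reg, Function.update s.mem (s.reg a) (s.reg b)⟩
  | seq (p q : Prog) (s s' s'' : State) (t t' : ℕ) (h : Exec W p s t s')
      (h' : Exec W q s' t' s'') : Exec W (.seq p q) s (t + t') s''
  | iteTrue (c : Test) (p q : Prog) (s s' : State) (t : ℕ) (hc : c.holds s.reg)
      (h : Exec W p s t s') : Exec W (.ite c p q) s (t + 1) s'
  | iteFalse (c : Test) (p q : Prog) (s s' : State) (t : ℕ) (hc : ¬ c.holds s.reg)
      (h : Exec W q s t s') : Exec W (.ite c p q) s (t + 1) s'
  | loopDone (c : Test) (p : Prog) (s : State) (hc : ¬ c.holds s.reg) :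
      Exec W (.loop c p) s 1 s
  | loopStep (c : Test) (p : Prog) (s s' s'' : State) (t t' : ℕ) (hc : c.holds s.reg)
      (h : Exec W p s t s') (h' : Exec W (.loop c p) s' t' s'') :
      Exec W (.loop c p) s (t + t' + 1) s''

/-- Adjacency lists of a graph on `Fin n`, each in an arbitrary order. -/
structure AdjLists {n : ℕ} (G : SimpleGraph (Fin n)) where
  nbrs : Fin n → List (Fin n)
  nodup : ∀ v, (nbrs v).Nodup
  mem_iff : ∀ u v, v ∈ nbrs u ↔ G.Adj u v

/-- The concatenation of the adjacency lists of the first `k` vertices. -/
def AdjLists.upTo {n : ℕ} {G : SimpleGraph (Fin n)} (L : AdjLists G) (k : ℕ) : List (Fin n) :=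
  ((List.finRange n).take k).flatMap L.nbrs

/-- The input: the number `n`, then the `n + 1` offsets at which the lists of the vertices
`0, …, n` start (in the concatenation of all lists), then the concatenation of all lists. -/
def AdjLists.encode {n : ℕ} {G : SimpleGraph (Fin n)} (L : AdjLists G) : List ℕ :=
  n :: ((List.range (n + 1)).map (fun k => (L.upTo k).length) ++ (L.upTo n).map Fin.val)

/-- The initial state on an input: the input in the first memory cells, all else `0`. -/
def State.init (input : List ℕ) : State := ⟨fun _ => 0, fun i => input.getD i 0⟩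

/-- `M` is a maximum matching of `G`. -/
def IsMaximumMatching {V : Type} (G : SimpleGraph V) (M : G.Subgraph) : Prop :=
  M.IsMatching ∧ ∀ M' : G.Subgraph, M'.IsMatching → M'.edgeSet.ncard ≤ M.edgeSet.ncard

/-- Cell `v` of the memory holds `0` if `M` leaves vertex `v` uncovered, and `u + 1` if `M`
joins `v` to `u`. -/
def Represents {n : ℕ} {G : SimpleGraph (Fin n)} (mem : ℕ → ℕ) (M : G.Subgraph) : Prop :=
  ∀ v : Fin n, (v ∉ M.verts → mem v = 0) ∧ ∀ u : Fin n, M.Adj v u → mem v = u + 1

/-- Program `P` computes a maximum matching of every graph `G` with property `C`, given by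
adjacency lists, in time at most `T n G`, on words of `O(log (n + m))` bits. -/
def Solves (P : Prog) (C : ∀ n : ℕ, SimpleGraph (Fin n) → Prop)
    (T : ∀ n : ℕ, SimpleGraph (Fin n) → ℕ) : Prop :=
  ∃ k : ℕ, ∀ (n : ℕ) (G : SimpleGraph (Fin n)), C n G → ∀ L : AdjLists G,
    ∃ (t : ℕ) (s : State) (M : G.Subgraph),
      Exec ((n + G.edgeSet.ncard + 2) ^ k) P (State.init L.encode) t s ∧ t ≤ T n G ∧
      IsMaximumMatching G M ∧ Represents s.mem M

end Vale.Agent.P305
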